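import Vale.Agent.P130.Flat.Final
import Vale.Agent.P130.Flat.Wave
import Vale.Agent.P130.Flat.Labels
import Vale.Agent.P130.Flat.Packing
import Vale.Agent.P130.Flat.RankOne

/-!
P130: an invertible measure-preserving transformation with simple Lebesgue spectrum.
-/

open MeasureTheory

open Vale.Agent.P130.Flat in
theorem Vale.Agent.Results.P130.SimpleLebesgue.result :
    ∃ (X : Type) (_ : MeasurableSpace X) (_ : StandardBorelSpace X) (μ : Measure X)
      (_ : IsProbabilityMeasure μ) (_ : NullSingletonClass μ) (T : X ≃ᵐ X) (f : X → ℂ),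
      MeasurePreserving T μ μ ∧ MemLp f 2 μ ∧ ∫ x, f x ∂μ = 0 ∧
      (∀ n m : ℤ, ∫ x, starRingEnd ℂ (f ((T.toEquiv ^ n : Equiv.Perm X) x)) *
          f ((T.toEquiv ^ m : Equiv.Perm X) x) ∂μ = if n = m then 1 else 0) ∧
      ∀ g : X → ℂ, MemLp g 2 μ → ∫ x, g x ∂μ = 0 →
        (∀ n : ℤ, ∫ x, starRingEnd ℂ (f ((T.toEquiv ^ n : Equiv.Perm X) x)) * g x ∂μ = 0) → g =ᵐ[μ] 0 :=
  answer_of (exists_of waveStmt labelStmt packStmt rankOneStmt)
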